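import Vale.Agent.P038.H411.Main

/-!
# (G) for arc-minimal counterexamples
-/

namespace Vale.Agent.P038.H411

open Finset H139

variable {V : Type*} [Fintype V] [DecidableEq V]

/-- keep, for the vertices of `X`, only the arcs into `X ∪ T` -/
def delG (D : OGraph V) (X T : Finset V) : OGraph V where
  arc y z := D.arc y z ∧ (y ∈ X → z ∈ X ∨ z ∈ T)
  loopless v h := D.loopless v h.1
  asymm u v h h' := D.asymm u v h.1 h'.1

/-- (G), strict form -/
theorem G_strict (D : OGraph V) (hCE : ∀ v, (N2 D v).card < (N1 D v).card)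
    (hmin : ∀ D' : OGraph V, (∀ v, (N2 D' v).card < (N1 D' v).card) →
      (∀ u v, D'.arc u v → D.arc u v) → ∀ u v, D.arc u v → D'.arc u v)
    (X : Finset V) (hX : cl D X ≠ X) :
    (cl D (cl D X) \ cl D X).card < (cl D X \ X).card := by
  classical
  by_contra hcon
  push Not at hcon
  set L := cl D X \ X with hL
  have hLne : L.Nonempty := by
    rw [Finset.nonempty_iff_ne_empty]
    intro h
    exact hX (subset_antisymm (sdiff_eq_empty_iff_subset.1 h) (sub_cl D X))
  let d : Finset V → ℤ := fun T => ((cl D T \ X).card : ℤ) - 2 * T.card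
  obtain ⟨T, hT, hTmin⟩ := Finset.exists_min_image L.ssubsets d
    ⟨∅, Finset.mem_ssubsets.2 (Finset.empty_ssubset.2 hLne)⟩
  have hTL := Finset.mem_ssubsets.1 hT
  -- `d L ≥ 0 = d ∅`
  have hdL : 0 ≤ d L := by
    have h1 : cl D L \ X = L ∪ (cl D (cl D X) \ cl D X) := by
      ext z
      simp only [hL, mem_sdiff, mem_union, mem_cl]
      constructor
      · rintro ⟨h2 | ⟨y, ⟨h3, h4⟩, h5⟩, h6⟩
        · exact Or.inl h2
        · by_cases h7 : z ∈ X ∨ ∃ y ∈ X, D.arc y z
          · exact Or.inl ⟨h7, h6⟩
          · exact Or.inr ⟨Or.inr ⟨y, h3, h5⟩, h7⟩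
      · rintro (⟨h2, h3⟩ | ⟨h2, h3⟩)
        · exact ⟨Or.inl ⟨h2, h3⟩, h3⟩
        · push Not at h3
          refine ⟨?_, h3.1⟩
          rcases h2 with (h2 | ⟨y, hy, h2⟩) | ⟨y, hy, h2⟩
          · exact absurd h2 h3.1
          · exact absurd h2 (h3.2 y hy)
          · refine Or.inr ⟨y, ⟨hy, fun hyX => h3.2 y hyX h2⟩, h2⟩
    have h2 : Disjoint L (cl D (cl D X) \ cl D X) := by
      rw [Finset.disjoint_left]
      intro z hz hz'
      exact (mem_sdiff.1 hz').2 (mem_sdiff.1 hz).1
    have h3 := Finset.card_union_of_disjoint h2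
    simp only [d]
    rw [h1, h3]
    push_cast
    omega
  have hd0 : d ∅ = 0 := by
    simp only [d]
    have : cl D (∅ : Finset V) = ∅ := by
      ext z
      simp [mem_cl]
    rw [this]
    simp
  have hTle : ∀ S, S ⊆ L → d T ≤ d S := by
    intro S hS
    by_cases hSL : S = L
    · subst hSL
      have h1 := hTmin ∅ (Finset.mem_ssubsets.2 (Finset.empty_ssubset.2 hLne))
      omega
    · exact hTmin S (Finset.mem_ssubsets.2 (Finset.ssubset_iff_subset_ne.2 ⟨hS, hSL⟩))
  -- consequence
  have hE : ∀ D' : Finset V, D' ⊆ L → Disjoint T D' →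
      2 * D'.card ≤ (cl D D' \ (cl D T ∪ X)).card := by
    intro D' hD' hdis
    have h1 := hTle (T ∪ D') (union_subset hTL.1 hD')
    have h2 : cl D (T ∪ D') \ X = (cl D T \ X) ∪ (cl D D' \ (cl D T ∪ X)) := by
      rw [cl_union]
      ext z
      simp only [mem_sdiff, mem_union]
      tauto
    have h3 : Disjoint (cl D T \ X) (cl D D' \ (cl D T ∪ X)) := by
      rw [Finset.disjoint_left]
      intro z hz hz'
      exact (mem_sdiff.1 hz').2 (mem_union_left _ (mem_sdiff.1 hz).1)
    have h4 := Finset.card_union_of_disjoint h3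
    have h5 := Finset.card_union_of_disjoint hdis
    simp only [d] at h1
    rw [h2, h4, h5] at h1
    push_cast at h1
    omega
  -- the new graph
  have hnew : ∀ v, (N2 (delG D X T) v).card < (N1 (delG D X T) v).card := by
    intro v
    by_cases hv : v ∈ X
    · -- `D_y` and `E_y`
      set Dy := (N1 D v).filter fun z => z ∉ X ∧ z ∉ T with hDy
      have hDyL : Dy ⊆ L := by
        intro z hz
        rw [hDy, mem_filter, mem_N1] at hz
        rw [hL, mem_sdiff]
        exact ⟨mem_cl.2 (Or.inr ⟨v, hv, hz.1⟩), hz.2.1⟩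
      have hDyT : Disjoint T Dy := by
        rw [Finset.disjoint_left]
        intro z hz hz'
        rw [hDy, mem_filter] at hz'
        exact hz'.2.2 hz
      have h1 := hE Dy hDyL hDyT
      set Ey := cl D Dy \ (cl D T ∪ X) with hEy
      have hN1 : N1 D v = N1 (delG D X T) v ∪ Dy := by
        ext z
        simp only [mem_union, mem_N1, hDy, mem_filter, delG]
        constructor
        · intro h2
          by_cases h3 : z ∈ X ∨ z ∈ T
          · exact Or.inl ⟨h2, fun _ => h3⟩
          · push Not at h3
            exact Or.inr ⟨h2, h3⟩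
        · rintro (h2 | h2)
          · exact h2.1
          · exact h2.1
      have hN1d : Disjoint (N1 (delG D X T) v) Dy := by
        rw [Finset.disjoint_left]
        intro z hz hz'
        rw [mem_N1] at hz
        rw [hDy, mem_filter] at hz'
        rcases hz.2 hv with h2 | h2
        · exact hz'.2.1 h2
        · exact hz'.2.2 h2
      have hN1c := Finset.card_union_of_disjoint hN1d
      rw [← hN1] at hN1c
      have hN2 : N2 (delG D X T) v ∪ Ey ⊆ N2 D v ∪ Dy := by
        intro z hz
        rcases mem_union.1 hz with hz | hz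
        · obtain ⟨h2, h3, u, h4, h5⟩ := mem_N2.1 hz
          by_cases h6 : D.arc v z
          · refine mem_union_right _ ?_
            rw [hDy, mem_filter, mem_N1]
            refine ⟨h6, ?_, ?_⟩
            · intro h7
              exact h3 ⟨h6, fun _ => Or.inl h7⟩
            · intro h7
              exact h3 ⟨h6, fun _ => Or.inr h7⟩
          · exact mem_union_left _ (mem_N2.2 ⟨h2, h6, u, h4.1, h5.1⟩)
        · rw [hEy, mem_sdiff, mem_union, not_or] at hz
          obtain ⟨h2, h3, h4⟩ := hz
          rcases mem_cl.1 h2 with h5 | ⟨u, hu, h5⟩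
          · exact mem_union_right _ h5
          · by_cases h6 : D.arc v z
            · refine mem_union_right _ ?_
              rw [hDy, mem_filter, mem_N1]
              exact ⟨h6, h4, fun h7 => h3 (sub_cl D T h7)⟩
            · refine mem_union_left _ (mem_N2.2 ⟨?_, h6, u, ?_, h5⟩)
              · rintro rfl
                exact h4 hv
              · rw [hDy, mem_filter, mem_N1] at hu
                exact hu.1
      have hN2d : Disjoint (N2 (delG D X T) v) Ey := by
        rw [Finset.disjoint_left]
        intro z hz hz'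
        rw [hEy, mem_sdiff, mem_union, not_or] at hz'
        obtain ⟨h2, h3, u, h4, h5⟩ := mem_N2.1 hz
        by_cases hu : u ∈ X
        · rcases h5.2 hu with h6 | h6
          · exact hz'.2.2 h6
          · exact hz'.2.1 (sub_cl D T h6)
        · rcases h4.2 hv with h6 | h6
          · exact hu h6
          · exact hz'.2.1 (mem_cl.2 (Or.inr ⟨u, h6, h5.1⟩))
      have hN2c := Finset.card_union_of_disjoint hN2d
      have h6 := Finset.card_le_card hN2
      have h7 := Finset.card_union_le (N2 D v) Dy
      have h8 := hCE v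
      omega
    · have hN1 : N1 (delG D X T) v = N1 D v := by
        ext z
        simp only [mem_N1, delG]
        exact ⟨fun h => h.1, fun h => ⟨h, fun h' => absurd h' hv⟩⟩
      have hN2 : N2 (delG D X T) v ⊆ N2 D v := by
        intro z hz
        obtain ⟨h2, h3, u, h4, h5⟩ := mem_N2.1 hz
        refine mem_N2.2 ⟨h2, ?_, u, h4.1, h5.1⟩
        intro h6
        exact h3 ⟨h6, fun h' => absurd h' hv⟩
      have h1 := Finset.card_le_card hN2
      have h2 := hCE v
      rw [hN1]
      omega
  -- contradiction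
  have hall := hmin (delG D X T) hnew (fun u v h => h.1)
  obtain ⟨z, hz, hzT⟩ := Finset.exists_of_ssubset hTL
  rw [hL, mem_sdiff] at hz
  rcases mem_cl.1 hz.1 with h1 | ⟨y, hy, h1⟩
  · exact hz.2 h1
  · rcases (hall y z h1).2 hy with h2 | h2
    · exact hz.2 h2
    · exact hzT h2

/-- number of arcs -/
noncomputable def arcs (D : OGraph V) : ℕ := ∑ v, (N1 D v).card

/-- Seymour's second neighbourhood conjecture. -/
theorem seymour [Nonempty V] (D : OGraph V) : ∃ v, (N1 D v).card ≤ (N2 D v).card := by
  classical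
  by_contra hcon
  push Not at hcon
  -- arc-minimal counterexample
  have hex : ∃ n, ∃ D' : OGraph V, (∀ v, (N2 D' v).card < (N1 D' v).card) ∧ arcs D' = n :=
    ⟨_, D, hcon, rfl⟩
  obtain ⟨D0, hCE, hn⟩ := Nat.find_spec hex
  have hmin0 : ∀ D' : OGraph V, (∀ v, (N2 D' v).card < (N1 D' v).card) → arcs D0 ≤ arcs D' := by
    intro D' h
    rw [hn]
    exact Nat.find_min' hex ⟨D', h, rfl⟩
  have hmin : ∀ D' : OGraph V, (∀ v, (N2 D' v).card < (N1 D' v).card) →
      (∀ u v, D'.arc u v → D0.arc u v) → ∀ u v, D0.arc u v → D'.arc u v := by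
    intro D' h hsub u v huv
    by_contra hno
    have h1 : arcs D' < arcs D0 := by
      unfold arcs
      refine Finset.sum_lt_sum (fun x _ => Finset.card_le_card fun y hy => ?_)
        ⟨u, mem_univ _, Finset.card_lt_card (Finset.ssubset_iff_subset_ne.2 ⟨fun y hy => ?_, ?_⟩)⟩
      · exact mem_N1.2 (hsub x y (mem_N1.1 hy))
      · exact mem_N1.2 (hsub u y (mem_N1.1 hy))
      · intro he
        have : v ∈ N1 D' u := by
          rw [he]
          exact mem_N1.2 huv
        exact hno (mem_N1.1 this)
    exact absurd (hmin0 D' h) (not_le.2 h1)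
  refine contra D0 (fun a => ?_) (fun X => ?_) (fun X hX => G_strict D0 hCE hmin X hX)
  · have h1 := hCE a
    have h2 : 0 < (N1 D0 a).card := by omega
    obtain ⟨b, hb⟩ := Finset.card_pos.1 h2
    exact ⟨b, mem_N1.1 hb⟩
  · by_cases hX : cl D0 X = X
    · rw [hX, hX, sdiff_self]
    · exact (G_strict D0 hCE hmin X hX).le

end Vale.Agent.P038.H411
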