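import Vale.Agent.P038.H411.Star
import Vale.Agent.P038.H139.Basic

/-!
# From (G) to a contradiction

If all sets satisfy `|N[N[X]] \ N[X]| ≤ |N[X] \ X|`, strictly when `N[X] ≠ X`, and every vertex has
an out-neighbour, we reach a contradiction.
-/

namespace Vale.Agent.P038.H411

open Finset H139

variable {V : Type*} [Fintype V] [DecidableEq V]

theorem sub_cl (D : OGraph V) (S : Finset V) : S ⊆ cl D S := fun _ hz => mem_cl.2 (Or.inl hz)

theorem cl_mono (D : OGraph V) {S T : Finset V} (h : S ⊆ T) : cl D S ⊆ cl D T := by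
  intro z hz
  rcases mem_cl.1 hz with h1 | ⟨y, hy, h1⟩
  · exact mem_cl.2 (Or.inl (h h1))
  · exact mem_cl.2 (Or.inr ⟨y, h hy, h1⟩)

theorem cl_union (D : OGraph V) (S T : Finset V) : cl D (S ∪ T) = cl D S ∪ cl D T := by
  ext z
  simp only [mem_cl, mem_union]
  constructor
  · rintro ((h | h) | ⟨y, (h | h), h1⟩)
    · exact Or.inl (Or.inl h)
    · exact Or.inr (Or.inl h)
    · exact Or.inl (Or.inr ⟨y, h, h1⟩)
    · exact Or.inr (Or.inr ⟨y, h, h1⟩)
  · rintro ((h | ⟨y, h, h1⟩) | (h | ⟨y, h, h1⟩))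
    · exact Or.inl (Or.inl h)
    · exact Or.inr ⟨y, Or.inl h, h1⟩
    · exact Or.inl (Or.inr h)
    · exact Or.inr ⟨y, Or.inr h, h1⟩

/-- the boundary function -/
noncomputable def cc (D : OGraph V) (X : Finset V) : ℤ := ((cl D X).card : ℤ) - X.card

theorem cc_sub (D : OGraph V) (X Y : Finset V) :
    cc D (X ∪ Y) + cc D (X ∩ Y) ≤ cc D X + cc D Y := by
  unfold cc
  have h1 := Finset.card_union_add_card_inter X Y
  have h2 := Finset.card_union_add_card_inter (cl D X) (cl D Y)
  have h3 : cl D (X ∩ Y) ⊆ cl D X ∩ cl D Y :=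
    subset_inter (cl_mono D inter_subset_left) (cl_mono D inter_subset_right)
  have h4 := Finset.card_le_card h3
  rw [cl_union]
  omega

/-- closed in-neighbour relation: `z` is in the closed in-neighbourhood of `z'` -/
def rr (D : OGraph V) (z z' : V) : Prop := z = z' ∨ D.arc z z'

/-- admissible pairs -/
structure Adm (D : OGraph V) (U Z : V → Finset V) : Prop where
  hN : ∀ a b, rr D a b → b ∈ U a
  hUZ : ∀ a, U a ⊆ Z a
  hrev : ∀ z y, D.arc y z → y ∉ Z z

/-- outer cost, row by row -/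
noncomputable def oo (D : OGraph V) (U Z : V → Finset V) (a : V) : ℤ :=
  ((cl D (U a)).card : ℤ) - (U a).card + (Z a).card - (er (rr D) Z a).card

theorem sum_upd (f g : V → ℤ) (a : V) (h : ∀ z, z ≠ a → f z = g z) :
    ∑ z, f z - ∑ z, g z = f a - g a := by
  rw [← Finset.sum_sub_distrib]
  exact Finset.sum_eq_single a (fun z _ hz => by rw [h z hz, sub_self]) (by simp)

theorem adm_NN (D : OGraph V) : Adm D (fun a => cl D {a}) (fun a => cl D {a}) where
  hN a b h := by
    rcases h with rfl | h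
    · exact mem_cl.2 (Or.inl (mem_singleton_self _))
    · exact mem_cl.2 (Or.inr ⟨a, mem_singleton_self _, h⟩)
  hUZ _ := subset_rfl
  hrev z y h hy := by
    rcases mem_cl.1 hy with h1 | ⟨x, hx, h1⟩
    · rw [mem_singleton] at h1
      subst h1
      exact D.loopless _ h
    · rw [mem_singleton] at hx
      subst hx
      exact D.asymm _ _ h h1

theorem exists_min (D : OGraph V) : ∃ U Z : V → Finset V, Adm D U Z ∧
    ∀ U' Z' : V → Finset V, Adm D U' Z' → ∑ a, oo D U Z a ≤ ∑ a, oo D U' Z' a := by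
  classical
  obtain ⟨p, hp, hmin⟩ := Finset.exists_min_image
    ((univ : Finset ((V → Finset V) × (V → Finset V))).filter fun p => Adm D p.1 p.2)
    (fun p => ∑ a, oo D p.1 p.2 a)
    ⟨(fun a => cl D {a}, fun a => cl D {a}), by simpa using adm_NN D⟩
  refine ⟨p.1, p.2, (mem_filter.1 hp).2, fun U' Z' h => ?_⟩
  exact hmin (U', Z') (mem_filter.2 ⟨mem_univ _, h⟩)

/-- Step 1, rows -/
theorem row_opt (D : OGraph V) {U Z : V → Finset V} (hA : Adm D U Z)
    (hmin : ∀ U' Z' : V → Finset V, Adm D U' Z' → ∑ a, oo D U Z a ≤ ∑ a, oo D U' Z' a)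
    (a : V) (S : Finset V) (h1 : U a ⊆ S) (h2 : S ⊆ Z a) : cc D (U a) ≤ cc D S := by
  have hA' : Adm D (Function.update U a S) Z := by
    refine ⟨?_, ?_, hA.hrev⟩
    · intro x b h
      by_cases hx : x = a
      · subst hx
        rw [Function.update_self]
        exact h1 (hA.hN _ _ h)
      · rw [Function.update_of_ne hx]
        exact hA.hN _ _ h
    · intro x
      by_cases hx : x = a
      · subst hx
        rw [Function.update_self]
        exact h2
      · rw [Function.update_of_ne hx]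
        exact hA.hUZ x
  have h3 := hmin _ _ hA'
  have h4 := sum_upd (fun z => oo D (Function.update U a S) Z z) (fun z => oo D U Z z) a (by
    intro z hz
    simp only [oo, Function.update_of_ne hz])
  simp only [oo, Function.update_self] at h4 h3
  unfold cc
  omega

/-- Step 1, columns -/
theorem col_hall (D : OGraph V) {U Z : V → Finset V} (hA : Adm D U Z)
    (hmin : ∀ U' Z' : V → Finset V, Adm D U' Z' → ∑ a, oo D U Z a ≤ ∑ a, oo D U' Z' a)
    (b : V) (S T : Finset V) (hS : ∀ z ∈ S, b ∈ Z z ∧ b ∉ U z)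
    (hT : ∀ z', (b ∈ er (rr D) Z z') → (∃ z ∈ S, rr D z z') → z' ∈ T) : S.card ≤ T.card := by
  classical
  let Z' : V → Finset V := fun z => (Z z).filter fun x => ¬ (x = b ∧ z ∈ S)
  have hmem : ∀ z x, x ∈ Z' z ↔ x ∈ Z z ∧ ¬ (x = b ∧ z ∈ S) := fun z x => mem_filter
  have hA' : Adm D U Z' := by
    refine ⟨hA.hN, ?_, ?_⟩
    · intro a x hx
      refine (hmem a x).2 ⟨hA.hUZ a hx, ?_⟩
      rintro ⟨rfl, h⟩
      exact (hS a h).2 hx
    · intro z y h hy
      exact hA.hrev z y h ((hmem z y).1 hy).1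
  have h3 := hmin _ _ hA'
  have h4 : ∀ z, ((Z z).card : ℤ) = (Z' z).card + (if z ∈ S then 1 else 0) := by
    intro z
    by_cases hz : z ∈ S
    · have : Z z = insert b (Z' z) := by
        ext x
        rw [mem_insert, hmem]
        constructor
        · intro hx
          by_cases hxb : x = b
          · exact Or.inl hxb
          · exact Or.inr ⟨hx, fun h => hxb h.1⟩
        · rintro (rfl | h)
          · exact (hS z hz).1
          · exact h.1
      have hb : b ∉ Z' z := fun h => ((hmem z b).1 h).2 ⟨rfl, hz⟩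
      rw [this, card_insert_of_notMem hb, if_pos hz]
      push_cast
      ring
    · have : Z z = Z' z := by
        ext x
        rw [hmem]
        exact ⟨fun h => ⟨h, fun h' => hz h'.2⟩, fun h => h.1⟩
      rw [← this, if_neg hz]
      ring
  have h5 : ∀ z, ((er (rr D) Z z).card : ℤ) ≤ (er (rr D) Z' z).card + (if z ∈ T then 1 else 0) := by
    intro z
    by_cases hz : z ∈ T
    · have : er (rr D) Z z ⊆ insert b (er (rr D) Z' z) := by
        intro x hx
        rw [mem_insert]
        by_cases hxb : x = b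
        · exact Or.inl hxb
        · refine Or.inr (mem_er.2 fun y hy => (hmem y x).2 ⟨mem_er.1 hx y hy, fun h => hxb h.1⟩)
      have h6 := (card_le_card this).trans (card_insert_le _ _)
      rw [if_pos hz]
      omega
    · have : er (rr D) Z z ⊆ er (rr D) Z' z := by
        intro x hx
        refine mem_er.2 fun y hy => (hmem y x).2 ⟨mem_er.1 hx y hy, ?_⟩
        rintro ⟨rfl, hyS⟩
        exact hz (hT z hx ⟨y, hyS, hy⟩)
      have h6 := card_le_card this
      rw [if_neg hz]
      omega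
  have h6 : ∑ z, ((if z ∈ S then 1 else 0 : ℤ)) = S.card := by
    simp
  have h7 : ∑ z, ((if z ∈ T then 1 else 0 : ℤ)) = T.card := by
    simp
  have h8 : ∑ z, (((Z z).card : ℤ) - (Z' z).card) = S.card := by
    rw [← h6]
    exact Finset.sum_congr rfl fun z _ => by rw [h4 z]; ring
  have h9 : ∑ z, (((er (rr D) Z z).card : ℤ) - (er (rr D) Z' z).card) ≤ T.card := by
    rw [← h7]
    exact Finset.sum_le_sum fun z _ => by have := h5 z; omega
  have h10 : ∑ z, oo D U Z' z - ∑ z, oo D U Z z =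
      ∑ z, (((er (rr D) Z z).card : ℤ) - (er (rr D) Z' z).card) -
        ∑ z, (((Z z).card : ℤ) - (Z' z).card) := by
    rw [← Finset.sum_sub_distrib, ← Finset.sum_sub_distrib]
    refine Finset.sum_congr rfl fun z _ => ?_
    unfold oo
    ring
  omega

/-- double counting -/
theorem dc (F G : V → Finset V) (h : ∀ b y, y ∈ F b → b ∈ G y) :
    ∑ b, ((F b).card : ℤ) ≤ ∑ y, ((G y).card : ℤ) := by
  classical
  have e : ∀ (H : V → Finset V) (b : V), ((H b).card : ℤ) = ∑ y, if y ∈ H b then 1 else 0 := by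
    intro H b
    simp
  rw [Finset.sum_congr rfl fun b _ => e F b, Finset.sum_congr rfl fun b _ => e G b,
    Finset.sum_comm]
  refine Finset.sum_le_sum fun y _ => Finset.sum_le_sum fun b _ => ?_
  by_cases hy : y ∈ F b
  · rw [if_pos hy, if_pos (h b y hy)]
  · rw [if_neg hy]
    split_ifs <;> norm_num

theorem card_sdiff_int {S T : Finset V} (h : S ⊆ T) :
    ((T \ S).card : ℤ) = T.card - S.card := by
  have h1 := Finset.card_sdiff_add_card_eq_card h
  omega

/-- The contradiction. -/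
theorem contra [Nonempty V] (D : OGraph V) (hout : ∀ a, ∃ b, D.arc a b)
    (hG : ∀ X : Finset V, (cl D (cl D X) \ cl D X).card ≤ (cl D X \ X).card)
    (hG' : ∀ X : Finset V, cl D X ≠ X →
      (cl D (cl D X) \ cl D X).card < (cl D X \ X).card) : False := by
  classical
  obtain ⟨U, Z, hA, hmin⟩ := exists_min D
  have rfl' : ∀ z, rr D z z := fun z => Or.inl rfl
  have hstar := star (cc D) (cc_sub D) (rr D) U Z hA.hUZ (row_opt D hA hmin)
    (fun x S T hS hT => col_hall D hA hmin x S T hS hT)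
  -- the new families
  let X : V → Finset V := fun a => er (rr D) U a
  let Y : V → Finset V := fun b => univ.filter fun z => z = b ∨ b ∉ cl D (Z z)
  have hY : ∀ b z, z ∈ Y b ↔ z = b ∨ b ∉ cl D (Z z) := fun b z => by simp [Y]
  have F1 : ∀ a, a ∈ X a := fun a => mem_er.2 fun z hz => hA.hN z a hz
  have F2 : ∀ z y, D.arc y z → y ∉ cl D (er (rr D) Z z) := by
    intro z y h hy
    rcases mem_cl.1 hy with h1 | ⟨x, hx, h1⟩
    · exact hA.hrev z y h (mem_er.1 h1 z (rfl' z))
    · exact hA.hrev y x h1 (mem_er.1 hx y (Or.inr h))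
  have F3 : ∀ b y, y ∈ cl D (Y b) → y = b ∨ b ∉ cl D (er (rr D) Z y) := by
    intro b y hy
    rcases mem_cl.1 hy with h1 | ⟨z, hz, h1⟩
    · rcases (hY b y).1 h1 with h2 | h2
      · exact Or.inl h2
      · refine Or.inr fun h3 => h2 ?_
        exact cl_mono D (fun x hx => mem_er.1 hx y (rfl' y)) h3
    · rcases (hY b z).1 hz with h2 | h2
      · subst h2
        exact Or.inr (F2 y z h1)
      · refine Or.inr fun h3 => h2 ?_
        rcases mem_cl.1 h3 with h4 | ⟨x, hx, h4⟩
        · exact mem_cl.2 (Or.inl (mem_er.1 h4 z (Or.inr h1)))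
        · exact mem_cl.2 (Or.inr ⟨x, mem_er.1 hx z (Or.inr h1), h4⟩)
  have erZ : ∀ y, er (rr D) Z y ⊆ Z y := fun y x hx => mem_er.1 hx y (rfl' y)
  have E1 : ∑ b, ((cl D (Y b) \ Y b).card : ℤ) ≤
      ∑ y, ((cl D (Z y) \ cl D (er (rr D) Z y)).card : ℤ) := by
    refine dc _ _ ?_
    intro b y hy
    rw [mem_sdiff] at hy ⊢
    have h1 := hy.2
    rw [hY, not_or, not_not] at h1
    refine ⟨h1.2, ?_⟩
    rcases F3 b y hy.1 with h2 | h2
    · exact absurd h2 h1.1
    · exact h2
  -- the new pair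
  let U' : V → Finset V := fun a => cl D (X a)
  let Z' : V → Finset V := fun z => univ.filter fun b => b = z ∨ z ∉ cl D (Y b)
  have hZ' : ∀ z b, b ∈ Z' z ↔ b = z ∨ z ∉ cl D (Y b) := fun z b => by simp [Z']
  have hN' : ∀ a b, rr D a b → b ∈ U' a := by
    intro a b h
    rcases h with rfl | h
    · exact mem_cl.2 (Or.inl (F1 a))
    · exact mem_cl.2 (Or.inr ⟨a, F1 a, h⟩)
  have hUZ' : ∀ z, U' z ⊆ Z' z := by
    intro z b hb
    rw [hZ']
    by_contra hcon
    push Not at hcon
    rcases F3 b z hcon.2 with h2 | h2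
    · exact hcon.1 h2.symm
    · exact h2 (cl_mono D (er_mono (rr D) U Z hA.hUZ z) hb)
  have hA' : Adm D U' Z' := by
    refine ⟨hN', hUZ', ?_⟩
    intro z y h hy
    rcases (hZ' z y).1 hy with h1 | h1
    · subst h1
      exact D.loopless _ h
    · exact h1 (mem_cl.2 (Or.inr ⟨y, (hY y y).2 (Or.inl rfl), h⟩))
  have hm := hmin U' Z' hA'
  have E2 : ∑ z, ((Z' z \ er (rr D) Z' z).card : ℤ) ≤
      ∑ b, ((cl D (cl D (Y b)) \ cl D (Y b)).card : ℤ) := by
    refine dc _ _ ?_
    intro z b hb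
    rw [mem_sdiff] at hb ⊢
    obtain ⟨hb1, hb2⟩ := hb
    rw [mem_er] at hb2
    push Not at hb2
    obtain ⟨z0, hz0, hb0⟩ := hb2
    have hb0' := hb0
    rw [hZ'] at hb0'
    push Not at hb0'
    constructor
    · rcases hz0 with rfl | hz0
      · exact mem_cl.2 (Or.inl hb0'.2)
      · exact mem_cl.2 (Or.inr ⟨z0, hb0'.2, hz0⟩)
    · rcases (hZ' z b).1 hb1 with h1 | h1
      · subst h1
        exact absurd (hUZ' z0 (hN' z0 b hz0)) hb0
      · exact h1
  -- strictness
  have hstrict : ∃ a, cl D (X a) ≠ X a := by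
    by_contra hcon
    push Not at hcon
    -- minimal closed set
    have hne : ((univ : Finset (Finset V)).filter fun C => C.Nonempty ∧ cl D C = C).Nonempty := by
      refine ⟨univ, mem_filter.2 ⟨mem_univ _, univ_nonempty, ?_⟩⟩
      exact subset_antisymm (subset_univ _) (sub_cl D _)
    obtain ⟨C, hC, hCmin⟩ := Finset.exists_min_image _ (fun C => C.card) hne
    obtain ⟨⟨a, ha⟩, hCc⟩ := (mem_filter.1 hC).2
    obtain ⟨b, hab⟩ := hout a
    have hbC : b ∈ C := by
      rw [← hCc]
      exact mem_cl.2 (Or.inr ⟨a, ha, hab⟩)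
    have haX : a ∉ X b := by
      intro h
      exact hA.hrev b a hab (hA.hUZ b (mem_er.1 h b (rfl' b)))
    have h1 : X b ∩ C ∈ (univ : Finset (Finset V)).filter fun C => C.Nonempty ∧ cl D C = C := by
      refine mem_filter.2 ⟨mem_univ _, ⟨b, mem_inter.2 ⟨F1 b, hbC⟩⟩, ?_⟩
      refine subset_antisymm ?_ (sub_cl D _)
      refine subset_inter ?_ ?_
      · have := cl_mono D (inter_subset_left (s₁ := X b) (s₂ := C))
        rwa [hcon b] at this
      · have := cl_mono D (inter_subset_right (s₁ := X b) (s₂ := C))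
        rwa [hCc] at this
    have h2 := hCmin _ h1
    have h3 : X b ∩ C ⊂ C := by
      refine Finset.ssubset_iff_subset_ne.2 ⟨inter_subset_right, fun h => ?_⟩
      rw [← h] at ha
      exact haX (mem_inter.1 ha).1
    exact absurd (card_lt_card h3) (not_lt.2 h2)
  obtain ⟨a0, ha0⟩ := hstrict
  have E3 : ∑ a, ((cl D (cl D (X a)) \ cl D (X a)).card : ℤ) <
      ∑ a, ((cl D (X a) \ X a).card : ℤ) := by
    refine Finset.sum_lt_sum (fun a _ => by exact_mod_cast hG (X a)) ⟨a0, mem_univ _, ?_⟩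
    exact_mod_cast hG' (X a0) ha0
  have E4 : ∑ b, ((cl D (cl D (Y b)) \ cl D (Y b)).card : ℤ) ≤
      ∑ b, ((cl D (Y b) \ Y b).card : ℤ) :=
    Finset.sum_le_sum fun b _ => by exact_mod_cast hG (Y b)
  -- rewrite everything in terms of cards
  have R1 : ∑ a, ((cl D (X a) \ X a).card : ℤ) = ∑ a, cc D (er (rr D) U a) :=
    Finset.sum_congr rfl fun a _ => card_sdiff_int (sub_cl D _)
  have R2 : ∑ y, ((cl D (Z y) \ cl D (er (rr D) Z y)).card : ℤ) =
      ∑ y, (((cl D (Z y)).card : ℤ) - (cl D (er (rr D) Z y)).card) :=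
    Finset.sum_congr rfl fun a _ => card_sdiff_int (cl_mono D (erZ a))
  have erZ' : ∀ y, er (rr D) Z' y ⊆ Z' y := fun y x hx => mem_er.1 hx y (rfl' y)
  have R3 : ∑ a, oo D U' Z' a = ∑ a, ((cl D (cl D (X a)) \ cl D (X a)).card : ℤ) +
      ∑ z, ((Z' z \ er (rr D) Z' z).card : ℤ) := by
    rw [← Finset.sum_add_distrib]
    refine Finset.sum_congr rfl fun a _ => ?_
    rw [card_sdiff_int (sub_cl D _), card_sdiff_int (erZ' a)]
    simp only [oo, U']
    ring
  have R4 : ∑ a, oo D U Z a = ∑ a, (cc D (er (rr D) U a)) +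
      ∑ y, (((cl D (Z y)).card : ℤ) - (cl D (er (rr D) Z y)).card) +
      (∑ z, (cc D (er (rr D) Z z) - cc D (er (rr D) U z)) - ∑ z, (cc D (Z z) - cc D (U z))) := by
    rw [← Finset.sum_sub_distrib, ← Finset.sum_add_distrib, ← Finset.sum_add_distrib]
    refine Finset.sum_congr rfl fun a _ => ?_
    simp only [oo, cc]
    ring
  omega

end Vale.Agent.P038.H411
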