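import Mathlib

/-!
# The shift inequality (STAR)

`c` is a submodular function on finite sets, `U z ⊆ Z z` are families of sets (rows), `r` a
relation. If each `U z` minimises `c` on `[U z, Z z]` and the columns satisfy a Hall condition, then
`∑ (c (Z z) - c (U z)) ≤ ∑ (c (A Z z) - c (A U z))`, where `A` intersects rows along `r`.
-/

namespace Vale.Agent.P038.H411

open Finset

variable {V : Type*} [Fintype V] [DecidableEq V]

/-- the interval `[P, T]` -/
def ivl (P T : Finset V) : Finset (Finset V) :=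
  (univ : Finset (Finset V)).filter fun X => P ⊆ X ∧ X ⊆ T

theorem mem_ivl {P T X : Finset V} : X ∈ ivl P T ↔ P ⊆ X ∧ X ⊆ T := by
  simp [ivl]

open Classical in
/-- minimum of `c` over the interval `[P, T]` -/
noncomputable def kap (c : Finset V → ℤ) (P T : Finset V) : ℤ :=
  if h : (ivl P T).Nonempty then (ivl P T).inf' h c else 0

theorem kap_le (c : Finset V → ℤ) {P T X : Finset V} (h1 : P ⊆ X) (h2 : X ⊆ T) :
    kap c P T ≤ c X := by
  have hm : X ∈ ivl P T := mem_ivl.2 ⟨h1, h2⟩
  have hne : (ivl P T).Nonempty := ⟨X, hm⟩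
  unfold kap
  rw [dif_pos hne]
  exact Finset.inf'_le c hm

theorem kap_attained (c : Finset V → ℤ) {P T : Finset V} (h : P ⊆ T) :
    ∃ X, P ⊆ X ∧ X ⊆ T ∧ c X = kap c P T := by
  have hne : (ivl P T).Nonempty := ⟨P, mem_ivl.2 ⟨subset_rfl, h⟩⟩
  obtain ⟨X, hX, hXe⟩ := Finset.exists_mem_eq_inf' hne c
  refine ⟨X, (mem_ivl.1 hX).1, (mem_ivl.1 hX).2, ?_⟩
  unfold kap
  rw [dif_pos hne, hXe]

theorem le_kap (c : Finset V → ℤ) {P T : Finset V} (h : P ⊆ T) {m : ℤ}
    (hm : ∀ X, P ⊆ X → X ⊆ T → m ≤ c X) : m ≤ kap c P T := by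
  obtain ⟨X, h1, h2, h3⟩ := kap_attained c h
  rw [← h3]
  exact hm X h1 h2

theorem kap_self (c : Finset V → ℤ) (T : Finset V) : kap c T T = c T := by
  apply le_antisymm (kap_le c subset_rfl subset_rfl)
  refine le_kap c subset_rfl fun X h1 h2 => ?_
  rw [subset_antisymm h1 h2]

theorem kap_mono (c : Finset V → ℤ) {P P' T : Finset V} (h : P ⊆ P') (h' : P' ⊆ T) :
    kap c P T ≤ kap c P' T :=
  le_kap c h' fun _ h1 h2 => kap_le c (h.trans h1) h2

theorem kap_marginal (c : Finset V → ℤ)
    (hsub : ∀ X Y, c (X ∪ Y) + c (X ∩ Y) ≤ c X + c Y)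
    {P P' T T' Q Q' : Finset V} (hP : P' ⊆ P) (hT : T' ⊆ T) (hPT : P ⊆ T) (hQT' : Q' ⊆ T')
    (hPQ' : P' ⊆ Q') (hQ : Q ⊆ P ∪ Q') :
    kap c Q T - kap c P T ≤ kap c Q' T' - kap c P' T' := by
  obtain ⟨X', h1, h2, h3⟩ := kap_attained c hQT'
  obtain ⟨X, g1, g2, g3⟩ := kap_attained c hPT
  have e1 : kap c Q T ≤ c (X' ∪ X) :=
    kap_le c (hQ.trans (union_subset (g1.trans subset_union_right) (h1.trans subset_union_left)))
      (union_subset (h2.trans hT) g2)
  have e2 : kap c P' T' ≤ c (X' ∩ X) :=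
    kap_le c (subset_inter (hPQ'.trans h1) (hP.trans g1)) (inter_subset_left.trans h2)
  have e3 := hsub X' X
  omega

/-- the first `k` vertices -/
noncomputable def ini (V : Type*) [Fintype V] [DecidableEq V] (k : ℕ) : Finset V :=
  univ.filter fun x => ((Fintype.equivFin V x : ℕ)) < k

theorem mem_ini {k : ℕ} {x : V} : x ∈ ini V k ↔ ((Fintype.equivFin V x : ℕ)) < k := by
  simp [ini]

/-- the partial minimum -/
noncomputable def gk (c : Finset V → ℤ) (U Z : Finset V) (k : ℕ) : ℤ :=
  kap c (U ∪ (Z ∩ ini V k)) Z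

/-- the greedy increment at `x` -/
noncomputable def bb (c : Finset V → ℤ) (U Z : Finset V) (x : V) : ℤ :=
  gk c U Z ((Fintype.equivFin V x : ℕ) + 1) - gk c U Z (Fintype.equivFin V x : ℕ)

theorem ini_mono {k l : ℕ} (h : k ≤ l) : ini V k ⊆ ini V l := fun _ hx =>
  mem_ini.2 (lt_of_lt_of_le (mem_ini.1 hx) h)

theorem bb_nonneg (c : Finset V → ℤ) {U Z : Finset V} (h : U ⊆ Z) (x : V) : 0 ≤ bb c U Z x := by
  unfold bb gk
  have := kap_mono c (T := Z) (P := U ∪ (Z ∩ ini V (Fintype.equivFin V x : ℕ)))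
    (P' := U ∪ (Z ∩ ini V ((Fintype.equivFin V x : ℕ) + 1)))
    (union_subset_union_right (inter_subset_inter_left (ini_mono (Nat.le_succ _))))
    (union_subset h inter_subset_left)
  omega

theorem sum_bb (c : Finset V → ℤ) {U Z : Finset V} (h : U ⊆ Z) :
    ∑ x, bb c U Z x = c Z - kap c U Z := by
  have h1 : ∑ x, bb c U Z x =
      ∑ i : Fin (Fintype.card V), (gk c U Z ((i : ℕ) + 1) - gk c U Z (i : ℕ)) := by
    refine Fintype.sum_equiv (Fintype.equivFin V) _ _ fun x => ?_
    rfl
  rw [h1, Fin.sum_univ_eq_sum_range (fun k => gk c U Z (k + 1) - gk c U Z k),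
    Finset.sum_range_sub (gk c U Z)]
  have h2 : gk c U Z (Fintype.card V) = c Z := by
    unfold gk
    have : U ∪ (Z ∩ ini V (Fintype.card V)) = Z := by
      ext x
      simp only [mem_union, mem_inter, mem_ini]
      have hx := (Fintype.equivFin V x).2
      constructor
      · rintro (h3 | h3)
        · exact h h3
        · exact h3.1
      · intro h3
        exact Or.inr ⟨h3, hx⟩
    rw [this, kap_self]
  have h3 : gk c U Z 0 = kap c U Z := by
    unfold gk
    have : U ∪ (Z ∩ ini V 0) = U := by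
      ext x
      simp [mem_ini]
    rw [this]
  rw [h2, h3]

/-- increments vanish outside the gap -/
theorem bb_zero (c : Finset V → ℤ) {U Z : Finset V} {x : V} (h : x ∈ U ∨ x ∉ Z) :
    bb c U Z x = 0 := by
  have : U ∪ (Z ∩ ini V ((Fintype.equivFin V x : ℕ) + 1)) =
      U ∪ (Z ∩ ini V (Fintype.equivFin V x : ℕ)) := by
    ext y
    simp only [mem_union, mem_inter, mem_ini]
    by_cases hxy : y = x
    · subst hxy
      rcases h with h | h
      · simp [h]
      · simp [h]
    · have : (Fintype.equivFin V y : ℕ) ≠ (Fintype.equivFin V x : ℕ) := by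
        intro h2
        exact hxy ((Fintype.equivFin V).injective (Fin.ext h2))
      constructor
      · rintro (h3 | h3)
        · exact Or.inl h3
        · exact Or.inr ⟨h3.1, by omega⟩
      · rintro (h3 | h3)
        · exact Or.inl h3
        · exact Or.inr ⟨h3.1, by omega⟩
  unfold bb gk
  rw [this, sub_self]

/-- increments decrease when the interval goes up -/
theorem bb_anti (c : Finset V → ℤ)
    (hsub : ∀ X Y, c (X ∪ Y) + c (X ∩ Y) ≤ c X + c Y)
    {U Z U' Z' : Finset V} (hUZ : U ⊆ Z) (hUZ' : U' ⊆ Z') (hU : U' ⊆ U) (hZ : Z' ⊆ Z)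
    {x : V} (hx : x ∈ Z') : bb c U Z x ≤ bb c U' Z' x := by
  unfold bb gk
  refine kap_marginal c hsub ?_ hZ (union_subset hUZ inter_subset_left)
    (union_subset hUZ' inter_subset_left) ?_ ?_
  · exact union_subset_union hU (inter_subset_inter_right hZ)
  · exact union_subset_union_right (inter_subset_inter_left (ini_mono (Nat.le_succ _)))
  · intro y hy
    simp only [mem_union, mem_inter, mem_ini] at hy ⊢
    rcases hy with h3 | ⟨h3, h4⟩
    · exact Or.inl (Or.inl h3)
    · by_cases hxy : y = x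
      · subst hxy
        exact Or.inr (Or.inr ⟨hx, h4⟩)
      · have : (Fintype.equivFin V y : ℕ) ≠ (Fintype.equivFin V x : ℕ) := by
          intro h2
          exact hxy ((Fintype.equivFin V).injective (Fin.ext h2))
        exact Or.inl (Or.inr ⟨h3, by omega⟩)

open Classical in
/-- intersection of rows along `r` -/
noncomputable def er (r : V → V → Prop) (B : V → Finset V) (z' : V) : Finset V :=
  univ.filter fun x => ∀ z, r z z' → x ∈ B z

theorem mem_er {r : V → V → Prop} {B : V → Finset V} {z' x : V} :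
    x ∈ er r B z' ↔ ∀ z, r z z' → x ∈ B z := by
  classical
  simp [er]

/-- optimality of rows is inherited by intersections of rows -/
theorem er_opt (c : Finset V → ℤ)
    (hsub : ∀ X Y, c (X ∪ Y) + c (X ∩ Y) ≤ c X + c Y)
    (r : V → V → Prop) (U Z : V → Finset V) (hUZ : ∀ a, U a ⊆ Z a)
    (hrow : ∀ a S, U a ⊆ S → S ⊆ Z a → c (U a) ≤ c S)
    (z' : V) (X : Finset V) (h1 : er r U z' ⊆ X) (h2 : X ⊆ er r Z z') : c (er r U z') ≤ c X := by
  classical
  -- intersect successively
  have key : ∀ K : Finset V, (∀ z ∈ K, r z z') →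
      c (X ∩ univ.filter fun x => ∀ z ∈ K, x ∈ U z) ≤ c X := by
    intro K
    induction K using Finset.induction_on with
    | empty =>
      intro _
      have : X ∩ (univ.filter fun x => ∀ z ∈ (∅ : Finset V), x ∈ U z) = X := by
        ext x
        simp
      rw [this]
    | insert z K hz ih =>
      intro hK
      have ih' := ih fun y hy => hK y (mem_insert_of_mem hy)
      set Y := X ∩ univ.filter fun x => ∀ z ∈ K, x ∈ U z with hY
      have hYZ : Y ⊆ Z z := by
        intro x hx
        have hxX := h2 (mem_inter.1 hx).1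
        exact mem_er.1 hxX z (hK z (mem_insert_self _ _))
      have e1 : X ∩ (univ.filter fun x => ∀ y ∈ insert z K, x ∈ U y) = U z ∩ Y := by
        ext x
        simp only [hY, mem_inter, mem_filter, mem_univ, true_and, mem_insert, forall_eq_or_imp]
        tauto
      have e2 := hsub (U z) Y
      have e3 := hrow z (U z ∪ Y) subset_union_left (union_subset (hUZ z) hYZ)
      rw [e1]
      omega
  have e := key (univ.filter fun z => r z z') (by simp)
  have e1 : (X ∩ univ.filter fun x => ∀ z ∈ univ.filter fun z => r z z', x ∈ U z) =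
      er r U z' := by
    ext x
    constructor
    · intro hx
      have := (mem_filter.1 (mem_inter.1 hx).2).2
      exact mem_er.2 fun z hz => this z (by simp [hz])
    · intro hx
      refine mem_inter.2 ⟨h1 hx, mem_filter.2 ⟨mem_univ _, fun z hz => ?_⟩⟩
      exact mem_er.1 hx z (mem_filter.1 hz).2
  rw [e1] at e
  exact e

theorem er_mono (r : V → V → Prop) (U Z : V → Finset V) (hUZ : ∀ a, U a ⊆ Z a) (z' : V) :
    er r U z' ⊆ er r Z z' := fun _ hx => mem_er.2 fun z hz => hUZ z (mem_er.1 hx z hz)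

/-- **(STAR)** -/
theorem star (c : Finset V → ℤ)
    (hsub : ∀ X Y, c (X ∪ Y) + c (X ∩ Y) ≤ c X + c Y)
    (r : V → V → Prop) (U Z : V → Finset V) (hUZ : ∀ a, U a ⊆ Z a)
    (hrow : ∀ a S, U a ⊆ S → S ⊆ Z a → c (U a) ≤ c S)
    (hcol : ∀ x (S T : Finset V), (∀ z ∈ S, x ∈ Z z ∧ x ∉ U z) →
      (∀ z', (x ∈ er r Z z') → (∃ z ∈ S, r z z') → z' ∈ T) → S.card ≤ T.card) :
    ∑ z, (c (Z z) - c (U z)) ≤ ∑ z, (c (er r Z z) - c (er r U z)) := by
  classical
  have e1 : ∀ z, c (Z z) - c (U z) = ∑ x, bb c (U z) (Z z) x := by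
    intro z
    rw [sum_bb c (hUZ z)]
    have : kap c (U z) (Z z) = c (U z) :=
      le_antisymm (kap_le c subset_rfl (hUZ z)) (le_kap c (hUZ z) fun X h1 h2 => hrow z X h1 h2)
    rw [this]
  have e2 : ∀ z, c (er r Z z) - c (er r U z) = ∑ x, bb c (er r U z) (er r Z z) x := by
    intro z
    have h := er_mono r U Z hUZ z
    rw [sum_bb c h]
    have : kap c (er r U z) (er r Z z) = c (er r U z) :=
      le_antisymm (kap_le c subset_rfl h)
        (le_kap c h fun X h1 h2 => er_opt c hsub r U Z hUZ hrow z X h1 h2)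
    rw [this]
  rw [Finset.sum_congr rfl fun z _ => e1 z, Finset.sum_congr rfl fun z _ => e2 z,
    Finset.sum_comm, Finset.sum_comm (f := fun z x => bb c (er r U z) (er r Z z) x)]
  refine Finset.sum_le_sum fun x _ => ?_
  -- Hall for the column `x`
  let G : Finset V := univ.filter fun z => x ∈ Z z ∧ x ∉ U z
  let t : G → Finset V := fun z => univ.filter fun z' => x ∈ er r Z z' ∧ r z.1 z'
  have hall : ∀ s : Finset G, s.card ≤ (s.biUnion t).card := by
    intro s
    have h1 := hcol x (s.map (Function.Embedding.subtype _)) (s.biUnion t) (by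
      intro z hz
      obtain ⟨y, hy, rfl⟩ := Finset.mem_map.1 hz
      have := y.2
      exact (mem_filter.1 this).2) (by
      rintro z' hz' ⟨z, hz, hr⟩
      obtain ⟨y, hy, rfl⟩ := Finset.mem_map.1 hz
      exact mem_biUnion.2 ⟨y, hy, mem_filter.2 ⟨mem_univ _, hz', hr⟩⟩)
    simpa using h1
  obtain ⟨f, hf, hft⟩ := (Finset.all_card_le_biUnion_card_iff_exists_injective t).1 hall
  have s1 : ∑ z, bb c (U z) (Z z) x = ∑ z ∈ G, bb c (U z) (Z z) x := by
    symm
    apply Finset.sum_subset (subset_univ _)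
    intro z _ hz
    apply bb_zero
    by_contra hcon
    push Not at hcon
    exact hz (mem_filter.2 ⟨mem_univ _, hcon.2, hcon.1⟩)
  rw [s1, ← Finset.sum_coe_sort G]
  calc ∑ z : G, bb c (U z) (Z z) x
      ≤ ∑ z : G, bb c (er r U (f z)) (er r Z (f z)) x := by
        refine Finset.sum_le_sum fun z _ => ?_
        have hz := mem_filter.1 (hft z)
        have hr : r z.1 (f z) := hz.2.2
        exact bb_anti c hsub (hUZ z) (er_mono r U Z hUZ _)
          (fun y hy => mem_er.1 hy z hr) (fun y hy => mem_er.1 hy z hr) hz.2.1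
    _ = ∑ z' ∈ univ.image f, bb c (er r U z') (er r Z z') x := by
        rw [Finset.sum_image fun a _ b _ h => hf h]
    _ ≤ ∑ z', bb c (er r U z') (er r Z z') x :=
        Finset.sum_le_sum_of_subset_of_nonneg (subset_univ _)
          fun z' _ _ => bb_nonneg c (er_mono r U Z hUZ _) x

end Vale.Agent.P038.H411
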